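import Mathlib
import Vale.Agent.P249.Quant

/-!
# Dimension reduction for finite subsets of `L_p`: dimension `n ^ (K / log D)` at distortion `D`

For every `1 ≤ p < ∞` there is `K` such that for all `D > 1` there is `C` with
`d_p(n, D) ≤ C n ^ (K / log D)` for all `n ≥ 2`. In particular `d_p(n, D) = o(n)` for `D > exp K`.

Proof idea (the proof is in the files `Vale.Agent.P249.*`).
* Start from a near-linear dimensional copy of the set (distortion 2), so the points are in
  `ℓ_p^{m}` with `m ≤ n ^ 2`.
* For every scale `2^s` put a localized copy of the point in `ℓ_p`: the coordinates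
  `(K_s(x, a))^{1/p} (x - a)_i` with a soft-min kernel `K_s(x, ·)` of the scale. Average these over
  windows of `W ≈ δ log n` scales, and smooth the result with the same kernels on a lower window;
  the variation at a smaller distance is then controlled by the growth of the soft volumes, and the
  sum of these variations over all windows telescopes, so it costs a constant factor only.
* Split every window by the size of the coordinates into `O(1/δ)` levels. Most levels are sparse,
  so sampling the coordinates gives scalar features with a sup norm at most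
  `n ^ {O(δ)}` times their mean; sum them over all windows with random signs.
* Sample `n ^ {O(δ)}` of these scalar features with an exponential potential.
-/

namespace Vale.Agent.Results.P249.LogRate

open MeasureTheory Filter Asymptotics
open scoped ENNReal

universe u

/-- The restriction of `f : E → F` to the finite set `X` has distortion at most `D`: for some scale
`s > 0`, `s ‖x - y‖ ≤ ‖f x - f y‖ ≤ D s ‖x - y‖` for all `x, y ∈ X`. -/
def HasDistortionLE {E F : Type*} [Norm E] [Sub E] [Norm F] [Sub F] (X : Finset E) (f : E → F)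
    (D : ℝ) : Prop :=
  ∃ s : ℝ, 0 < s ∧ ∀ x ∈ X, ∀ y ∈ X, s * ‖x - y‖ ≤ ‖f x - f y‖ ∧ ‖f x - f y‖ ≤ D * s * ‖x - y‖

/-- Every `n`-point subset of every real space `L_p(μ)` admits a map into `ℓ_p^d`
(that is, `ℝ^d` with the `p`-norm) with distortion at most `D`. -/
def EmbedsInto (p : ℝ≥0∞) [Fact (1 ≤ p)] (n : ℕ) (D : ℝ) (d : ℕ) : Prop :=
  ∀ (Ω : Type u) [MeasurableSpace Ω] (μ : Measure Ω) (X : Finset (Lp ℝ p μ)), X.card = n →
    ∃ f : Lp ℝ p μ → PiLp p (fun _ : Fin d => ℝ), HasDistortionLE X f D

/-- The number `d_p(n, D)`: the least dimension `d` such that every `n`-point subset of every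
`L_p(μ)` admits a map into `ℓ_p^d` with distortion at most `D`. -/
noncomputable def dimRed (p : ℝ≥0∞) [Fact (1 ≤ p)] (n : ℕ) (D : ℝ) : ℕ :=
  sInf {d : ℕ | EmbedsInto.{u} p n D d}

/-- For `1 ≤ p < ∞` there is a constant `K > 0` depending only on `p` such that:
for all `D > 1` the least dimension `d_p(n, D)` exists for all `n ≥ 2` and satisfies
`d_p(n, D) ≤ C n ^ (K / log D)` with `C` depending only on `p` and `D`; and for all `D > exp K`,
`d_p(n, D) = o(n)` as `n → ∞`. -/
theorem result (p : ℝ≥0∞) [Fact (1 ≤ p)] (hp : p ≠ ∞) :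
    ∃ K : ℝ, 0 < K ∧
      (∀ D : ℝ, 1 < D → ∃ C : ℝ, 0 < C ∧ ∀ n : ℕ, 2 ≤ n →
        EmbedsInto.{u} p n D (dimRed.{u} p n D) ∧
        (dimRed.{u} p n D : ℝ) ≤ C * (n : ℝ) ^ (K / Real.log D)) ∧
      (∀ D : ℝ, Real.exp K < D →
        (fun n : ℕ => (dimRed.{u} p n D : ℝ)) =o[atTop] (fun n : ℕ => (n : ℝ))) := by
  obtain ⟨K, hK, h⟩ := Vale.Agent.P249.Sub.exists_dim_log.{u} p hp
  have hmain : ∀ D : ℝ, 1 < D → ∃ C : ℝ, 0 < C ∧ ∀ n : ℕ, 2 ≤ n →
      EmbedsInto.{u} p n D (dimRed.{u} p n D) ∧
      (dimRed.{u} p n D : ℝ) ≤ C * (n : ℝ) ^ (K / Real.log D) := by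
    intro D hD
    obtain ⟨C, hC, h⟩ := h D hD
    refine ⟨C, hC, ?_⟩
    intro n hn
    obtain ⟨m, hm, hemb⟩ := h n hn
    have hmem : EmbedsInto.{u} p n D m := by
      intro Ω _ μ X hX
      obtain ⟨f, s, hs, hf⟩ := hemb Ω μ X hX
      exact ⟨f, s, hs, hf⟩
    refine ⟨Nat.sInf_mem (s := {d : ℕ | EmbedsInto.{u} p n D d}) ⟨m, hmem⟩, ?_⟩
    have hle : dimRed.{u} p n D ≤ m := Nat.sInf_le hmem
    have hle' : (dimRed.{u} p n D : ℝ) ≤ m := by exact_mod_cast hle
    exact hle'.trans hm
  refine ⟨K, hK, hmain, ?_⟩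
  intro D hD
  have hD1 : 1 < D := lt_trans (Real.one_lt_exp_iff.2 hK) hD
  have hlog : K < Real.log D := by
    rw [Real.lt_log_iff_exp_lt (by linarith)]; exact hD
  have hexp : K / Real.log D < 1 := by
    rw [div_lt_one (by linarith)]; exact hlog
  obtain ⟨C, hC, hCn⟩ := hmain D hD1
  have h1 : (fun n : ℕ => (dimRed.{u} p n D : ℝ)) =O[atTop]
      (fun n : ℕ => (n : ℝ) ^ (K / Real.log D)) := by
    apply IsBigO.of_bound C
    filter_upwards [eventually_ge_atTop 2] with n hn
    have := (hCn n hn).2
    rw [Real.norm_of_nonneg (Nat.cast_nonneg _), Real.norm_of_nonneg (by positivity)]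
    exact this
  have h3 : (fun n : ℕ => (n : ℝ) ^ (K / Real.log D)) =o[atTop] (fun n : ℕ => (n : ℝ)) := by
    apply isLittleO_of_tendsto'
    · filter_upwards [eventually_ge_atTop 1] with n hn hn0
      have : (1:ℝ) ≤ n := by exact_mod_cast hn
      exact absurd hn0 (by linarith)
    · have h4 := (tendsto_rpow_neg_atTop (y := 1 - K / Real.log D) (by linarith)).comp
        (tendsto_natCast_atTop_atTop (R := ℝ))
      refine h4.congr' ?_
      filter_upwards [eventually_ge_atTop 1] with n hn
      have hn1 : (1:ℝ) ≤ n := by exact_mod_cast hn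
      have h5 : (n:ℝ) ^ (K / Real.log D) / n = (n:ℝ) ^ (K / Real.log D - 1) := by
        rw [Real.rpow_sub_one (by linarith)]
      rw [h5]
      simp only [Function.comp_apply]
      congr 1
      ring
  exact h1.trans_isLittleO h3

end Vale.Agent.Results.P249.LogRate
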