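import Mathlib
import Vale.Agent.P249.Core

/-!
# Near-linear dimension reduction for finite subsets of `L_p`

For every `1 ≤ p < ∞` and every `D > 1` there is a constant `C` with
`d_p(n, D) ≤ C n (log n)^{p+2}` for all `n ≥ 2`.

Proof idea (the proof is in `Vale.Agent.P249.Core`).
* Every `n`-point metric space has a set `E` of `O(n log n)` pairs such that every pair of points
  `u, v` is joined through at most two pairs of `E` of total length `O(log n) d(u, v)` (a hierarchy
  of subsets, each obtained from the previous one by an averaged halving).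
* Hence, with `w = ∑_{(u,v) ∈ E} |u - v|^p / ‖u - v‖^p`, every coordinate satisfies
  `|x(ω) - y(ω)|^p ≤ O(log n)^p w(ω) ‖x - y‖^p`, while the integral of `w` is `O(n log n)`.
* Sampling coordinates with density proportional to `w` (done deterministically with an
  exponential potential) preserves all distances up to the factor `D`.
-/

namespace Vale.Agent.Results.P249.NearLinear

open MeasureTheory
open scoped ENNReal

universe u

/-- The restriction of `f : E → F` to the finite set `X` has distortion at most `D`: for some scale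
`s > 0`, `s ‖x - y‖ ≤ ‖f x - f y‖ ≤ D s ‖x - y‖` for all `x, y ∈ X`. -/
def HasDistortionLE {E F : Type*} [Norm E] [Sub E] [Norm F] [Sub F] (X : Finset E) (f : E → F)
    (D : ℝ) : Prop :=
  ∃ s : ℝ, 0 < s ∧ ∀ x ∈ X, ∀ y ∈ X, s * ‖x - y‖ ≤ ‖f x - f y‖ ∧ ‖f x - f y‖ ≤ D * s * ‖x - y‖

/-- Every `n`-point subset of every real space `L_p(μ)` admits a map into `ℓ_p^d`
(that is, `ℝ^d` with the `p`-norm) with distortion at most `D`. -/
def EmbedsInto (p : ℝ≥0∞) [Fact (1 ≤ p)] (n : ℕ) (D : ℝ) (d : ℕ) : Prop :=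
  ∀ (Ω : Type u) [MeasurableSpace Ω] (μ : Measure Ω) (X : Finset (Lp ℝ p μ)), X.card = n →
    ∃ f : Lp ℝ p μ → PiLp p (fun _ : Fin d => ℝ), HasDistortionLE X f D

/-- The number `d_p(n, D)`: the least dimension `d` such that every `n`-point subset of every
`L_p(μ)` admits a map into `ℓ_p^d` with distortion at most `D`. -/
noncomputable def dimRed (p : ℝ≥0∞) [Fact (1 ≤ p)] (n : ℕ) (D : ℝ) : ℕ :=
  sInf {d : ℕ | EmbedsInto.{u} p n D d}

/-- For `1 ≤ p < ∞` and `D > 1` the least dimension `d_p(n, D)` exists for all `n ≥ 2` and satisfies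
`d_p(n, D) ≤ C n (log n)^{p+2}` with `C` depending only on `p` and `D`. -/
theorem result (p : ℝ≥0∞) [Fact (1 ≤ p)] (hp : p ≠ ∞) (D : ℝ) (hD : 1 < D) :
    ∃ C : ℝ, 0 < C ∧ ∀ n : ℕ, 2 ≤ n →
      EmbedsInto.{u} p n D (dimRed.{u} p n D) ∧
      (dimRed.{u} p n D : ℝ) ≤ C * n * (Real.log n) ^ (p.toReal + 2) := by
  obtain ⟨C, hC, h⟩ := Vale.Agent.P249.exists_dim.{u} p hp D hD
  refine ⟨C, hC, ?_⟩
  intro n hn
  obtain ⟨m, hm, hemb⟩ := h n hn
  have hmem : EmbedsInto.{u} p n D m := by
    intro Ω _ μ X hX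
    obtain ⟨f, s, hs, hf⟩ := hemb Ω μ X hX
    exact ⟨f, s, hs, hf⟩
  refine ⟨Nat.sInf_mem (s := {d : ℕ | EmbedsInto.{u} p n D d}) ⟨m, hmem⟩, ?_⟩
  have hle : dimRed.{u} p n D ≤ m := Nat.sInf_le hmem
  have hle' : (dimRed.{u} p n D : ℝ) ≤ m := by exact_mod_cast hle
  exact hle'.trans hm

end Vale.Agent.Results.P249.NearLinear
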