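import Mathlib
import Vale.Agent.P249.SubPoly

/-!
# Dimension reduction for finite subsets of `L_p` to dimension `n ^ ε`

For every `1 ≤ p < ∞` and every `ε > 0` there is `D₀` such that for all `D ≥ D₀` there is `C` with
`d_p(n, D) ≤ C n ^ ε` for all `n ≥ 2`. In particular `d_p(n, D) = o(n)` for all large `D`.

Proof idea (the proof is in the files `Vale.Agent.P249.*`).
* Start from a near-linear dimensional copy of the set (distortion 2), so the points are in
  `ℓ_p^{m}` with `m ≤ n ^ 2`.
* For every scale `2^s` put a localized copy of the point in `ℓ_p`: the coordinates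
  `(K_s(x, a))^{1/p} (x - a)_i` with a soft-min kernel `K_s(x, ·)` of the scale. Average these over
  windows of `W ≈ δ log n` scales, and smooth the result with the same kernels on a lower window;
  the variation at a smaller distance is then controlled by the growth of the soft volumes, and the
  sum of these variations over all windows telescopes, so it costs a constant factor only.
* Split every window by the size of the coordinates into `O(1/δ)` levels. Most levels are sparse,
  so sampling the coordinates gives scalar features with a sup norm at most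
  `n ^ {O(δ)}` times their mean; sum them over all windows with random signs.
* Sample `n ^ {O(δ)}` of these scalar features with an exponential potential.
-/

namespace Vale.Agent.Results.P249.SubPoly

open MeasureTheory
open scoped ENNReal

universe u

/-- The restriction of `f : E → F` to the finite set `X` has distortion at most `D`: for some scale
`s > 0`, `s ‖x - y‖ ≤ ‖f x - f y‖ ≤ D s ‖x - y‖` for all `x, y ∈ X`. -/
def HasDistortionLE {E F : Type*} [Norm E] [Sub E] [Norm F] [Sub F] (X : Finset E) (f : E → F)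
    (D : ℝ) : Prop :=
  ∃ s : ℝ, 0 < s ∧ ∀ x ∈ X, ∀ y ∈ X, s * ‖x - y‖ ≤ ‖f x - f y‖ ∧ ‖f x - f y‖ ≤ D * s * ‖x - y‖

/-- Every `n`-point subset of every real space `L_p(μ)` admits a map into `ℓ_p^d`
(that is, `ℝ^d` with the `p`-norm) with distortion at most `D`. -/
def EmbedsInto (p : ℝ≥0∞) [Fact (1 ≤ p)] (n : ℕ) (D : ℝ) (d : ℕ) : Prop :=
  ∀ (Ω : Type u) [MeasurableSpace Ω] (μ : Measure Ω) (X : Finset (Lp ℝ p μ)), X.card = n →
    ∃ f : Lp ℝ p μ → PiLp p (fun _ : Fin d => ℝ), HasDistortionLE X f D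

/-- The number `d_p(n, D)`: the least dimension `d` such that every `n`-point subset of every
`L_p(μ)` admits a map into `ℓ_p^d` with distortion at most `D`. -/
noncomputable def dimRed (p : ℝ≥0∞) [Fact (1 ≤ p)] (n : ℕ) (D : ℝ) : ℕ :=
  sInf {d : ℕ | EmbedsInto.{u} p n D d}

/-- For `1 ≤ p < ∞` and `ε > 0` there is `D₀` such that for all `D ≥ D₀` the least dimension
`d_p(n, D)` exists for all `n ≥ 2` and satisfies `d_p(n, D) ≤ C n ^ ε` with `C` depending only on
`p`, `ε` and `D`. -/
theorem result (p : ℝ≥0∞) [Fact (1 ≤ p)] (hp : p ≠ ∞) (ε : ℝ) (hε : 0 < ε) :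
    ∃ D₀ : ℝ, 1 ≤ D₀ ∧ ∀ D : ℝ, D₀ ≤ D → ∃ C : ℝ, 0 < C ∧ ∀ n : ℕ, 2 ≤ n →
      EmbedsInto.{u} p n D (dimRed.{u} p n D) ∧
      (dimRed.{u} p n D : ℝ) ≤ C * (n : ℝ) ^ ε := by
  obtain ⟨D₀, hD₀, C, hC, h⟩ := Vale.Agent.P249.Sub.exists_dim_pow.{u} p hp ε hε
  refine ⟨D₀, hD₀, fun D hD => ⟨C, hC, ?_⟩⟩
  intro n hn
  obtain ⟨m, hm, hemb⟩ := h n hn
  have hmem : EmbedsInto.{u} p n D m := by
    intro Ω _ μ X hX
    obtain ⟨f, s, hs, hf⟩ := hemb Ω μ X hX
    refine ⟨f, s, hs, fun x hx y hy => ⟨(hf x hx y hy).1, (hf x hx y hy).2.trans ?_⟩⟩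
    exact mul_le_mul_of_nonneg_right (mul_le_mul_of_nonneg_right hD hs.le) (norm_nonneg _)
  refine ⟨Nat.sInf_mem (s := {d : ℕ | EmbedsInto.{u} p n D d}) ⟨m, hmem⟩, ?_⟩
  have hle : dimRed.{u} p n D ≤ m := Nat.sInf_le hmem
  have hle' : (dimRed.{u} p n D : ℝ) ≤ m := by exact_mod_cast hle
  exact hle'.trans hm

end Vale.Agent.Results.P249.SubPoly
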